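import Vale.Agent.P028.Full.MomentBasic
import Vale.Agent.P028.Full.Pools

/-!
The plain kernel of the lifted second moment at small levels, and how a saving in the plain weight
of the pairs of one level absorbs every moment of the factor from the primes of `q' r'`.
-/

noncomputable section

namespace Vale.Agent.P028.Full

open Finset BilinearAux

/-- `wt q * wt r / D`, times the near coincidences, times `p / (p - 1)` over the primes of
`q' r'`. -/
def plainKer (γ : ℝ) (ψ : ℕ → ℝ) (q r : ℕ) : ℝ :=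
  wt ψ q * wt ψ r / dist2 ψ q r * (((nearSet γ ψ q r).card : ℝ) * hFac 0 (qd q r * qd r q))

theorem plainKer_nonneg (γ : ℝ) {ψ : ℕ → ℝ} (hψ : ∀ q, 0 ≤ ψ q) (q r : ℕ) :
    0 ≤ plainKer γ ψ q r :=
  mul_nonneg (div_nonneg (mul_nonneg (wt_nonneg hψ q) (wt_nonneg hψ r))
    (le_max_of_le_left (mul_nonneg (hψ q) (Nat.cast_nonneg _))))
    (mul_nonneg (Nat.cast_nonneg _) (zero_le_one.trans (one_le_hFac _ _)))

theorem card_nearSet_le_one {γ : ℝ} {ψ : ℕ → ℝ} {q r : ℕ} (hD : dist2 ψ q r ≤ 1 / 4) :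
    (nearSet γ ψ q r).card ≤ 1 := by
  let K : Classes := ⟨fun _ => ∅, fun _ _ => 0, fun _ => Finset.empty_subset _⟩
  have e : admN γ ψ K q r = nearSet γ ψ q r :=
    Finset.filter_true_of_mem fun n _ => ⟨fun p hp => absurd hp (Finset.notMem_empty p),
      fun p hp => absurd hp (Finset.notMem_empty p)⟩
  exact e ▸ card_admN_le_one K hD

/-- The pairs of `S` at levels below `x0` with the property `P`. -/
def plainPairs (ψ : ℕ → ℝ) (S : Finset ℕ) (x0 : ℝ) (P : ℕ → ℕ → Prop) : Finset (ℕ × ℕ) :=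
  open Classical in
  (S ×ˢ S).filter fun z => z.2 ≠ z.1 ∧ dist2 ψ z.1 z.2 < x0 ∧ P z.1 z.2

/-- The dyadic level of a pair. -/
def plainLev (ψ : ℕ → ℝ) (z : ℕ × ℕ) : ℕ := Nat.log 2 ⌊(dist2 ψ z.1 z.2)⁻¹⌋₊

open Classical in
theorem plainLev_spec {ψ : ℕ → ℝ} {S : Finset ℕ} {x0 : ℝ} {P : ℕ → ℕ → Prop}
    (hS : ∀ q ∈ S, 0 < q) (hψ : ∀ q ∈ S, 0 < ψ q) (hx : x0 ≤ 1 / 8) {z : ℕ × ℕ}
    (hz : z ∈ plainPairs ψ S x0 P) :
    0 < dist2 ψ z.1 z.2 ∧ dist2 ψ z.1 z.2 ≤ (1 / 2 : ℝ) ^ plainLev ψ z ∧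
      (1 / 2 : ℝ) ^ plainLev ψ z < 2 * dist2 ψ z.1 z.2 ∧
      (2 : ℝ) ^ plainLev ψ z ≤ (dist2 ψ z.1 z.2)⁻¹ := by
  obtain ⟨hm, -, hD, -⟩ := Finset.mem_filter.1 hz
  obtain ⟨hq, hr⟩ := Finset.mem_product.1 hm
  have hD0 : 0 < dist2 ψ z.1 z.2 :=
    lt_max_of_lt_left (mul_pos (hψ _ hq) (Nat.cast_pos.2 (qd_pos (hS _ hr))))
  set X := (dist2 ψ z.1 z.2)⁻¹ with hX
  have hX8 : (8 : ℝ) ≤ X := by
    rw [hX, le_inv_comm₀ (by norm_num) hD0]
    linarith
  have hfl : 0 < ⌊X⌋₊ := Nat.floor_pos.2 (by linarith)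
  have l1 : (2 : ℝ) ^ plainLev ψ z ≤ X :=
    le_trans (by exact_mod_cast Nat.pow_log_le_self 2 hfl.ne') (Nat.floor_le (by linarith))
  have l2 : X < (2 : ℝ) ^ (plainLev ψ z + 1) :=
    lt_of_lt_of_le (Nat.lt_floor_add_one X)
      (by exact_mod_cast Nat.lt_pow_succ_log_self one_lt_two ⌊X⌋₊)
  refine ⟨hD0, ?_, ?_, l1⟩
  · rw [one_div, inv_pow, le_inv_comm₀ hD0 (by positivity)]
    exact l1
  · rw [hX, inv_lt_iff_one_lt_mul₀ hD0, pow_succ] at l2
    rw [one_div, inv_pow, inv_lt_iff_one_lt_mul₀ (by positivity)]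
    linarith

/-- A weight `≤ A x ^ a` with a `u`-th moment `≤ A' x ^ a'`. -/
theorem sum_moment_le {ι : Type*} (T : Finset ι) (w h : ι → ℝ) {u : ℕ} (hu : 2 ≤ u)
    (hw : ∀ i ∈ T, 0 ≤ w i) (hh : ∀ i ∈ T, 0 ≤ h i) {x A A' a a' c : ℝ} (hx : 0 < x) (hx1 : x ≤ 1)
    (hA : 0 ≤ A) (hA' : 0 ≤ A') (h1 : ∑ i ∈ T, w i ≤ A * x ^ a)
    (h2 : ∑ i ∈ T, w i * h i ^ u ≤ A' * x ^ a')
    (hc : c * (u : ℝ) ≤ a * ((u : ℝ) - 1) + a') :
    ∑ i ∈ T, w i * h i ≤ (A + 1) * (A' + 1) * x ^ c := by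
  have hu1 : 1 < u := hu
  have hu0 : (0 : ℝ) < u := Nat.cast_pos.2 (by omega)
  have hinv : 1 / (u : ℝ) < 1 := by
    rw [div_lt_one hu0]; exact_mod_cast hu1
  have hinv0 : 0 < 1 / (u : ℝ) := by positivity
  have hg0 : ∀ i ∈ T, 0 ≤ w i * h i ^ u := fun i hi => mul_nonneg (hw i hi) (pow_nonneg (hh i hi) _)
  have hh' := sum_rpow2_le T w (fun i => w i * h i ^ u) (a := 1 - 1 / (u : ℝ))
    (by linarith) (by linarith) hw hg0
  rw [sub_sub_cancel] at hh'
  have e : ∀ i ∈ T, w i ^ (1 - 1 / (u : ℝ)) * (w i * h i ^ u) ^ (1 / (u : ℝ)) = w i * h i := by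
    intro i hi
    rw [Real.mul_rpow (hw i hi) (pow_nonneg (hh i hi) _), ← mul_assoc,
      ← Real.rpow_add' (hw i hi) (by linarith), sub_add_cancel, Real.rpow_one, one_div,
      Real.pow_rpow_inv_natCast (hh i hi) (by omega)]
  rw [← Finset.sum_congr rfl e]
  refine hh'.trans ?_
  calc (∑ i ∈ T, w i) ^ (1 - 1 / (u : ℝ)) * (∑ i ∈ T, w i * h i ^ u) ^ (1 / (u : ℝ))
      ≤ (A * x ^ a) ^ (1 - 1 / (u : ℝ)) * (A' * x ^ a') ^ (1 / (u : ℝ)) :=
        mul_le_mul (Real.rpow_le_rpow (Finset.sum_nonneg hw) h1 (by linarith))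
          (Real.rpow_le_rpow (Finset.sum_nonneg hg0) h2 hinv0.le)
          (Real.rpow_nonneg (Finset.sum_nonneg hg0) _) (Real.rpow_nonneg (by positivity) _)
    _ = A ^ (1 - 1 / (u : ℝ)) * A' ^ (1 / (u : ℝ)) *
          x ^ (a * (1 - 1 / (u : ℝ)) + a' * (1 / (u : ℝ))) := by
        rw [Real.mul_rpow hA (by positivity), Real.mul_rpow hA' (by positivity),
          ← Real.rpow_mul hx.le, ← Real.rpow_mul hx.le, Real.rpow_add hx]
        ring
    _ ≤ _ := by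
        refine mul_le_mul (mul_le_mul ?_ ?_ (by positivity) (by positivity)) ?_ (by positivity)
          (by positivity)
        · calc A ^ (1 - 1 / (u : ℝ)) ≤ (A + 1) ^ (1 - 1 / (u : ℝ)) :=
                Real.rpow_le_rpow hA (by linarith) (by linarith)
            _ ≤ (A + 1) ^ (1 : ℝ) := Real.rpow_le_rpow_of_exponent_le (by linarith) (by linarith)
            _ = A + 1 := Real.rpow_one _
        · calc A' ^ (1 / (u : ℝ)) ≤ (A' + 1) ^ (1 / (u : ℝ)) :=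
                Real.rpow_le_rpow hA' (by linarith) hinv0.le
            _ ≤ (A' + 1) ^ (1 : ℝ) := Real.rpow_le_rpow_of_exponent_le (by linarith) hinv.le
            _ = A' + 1 := Real.rpow_one _
        · refine Real.rpow_le_rpow_of_exponent_ge hx hx1 ?_
          rw [show a * (1 - 1 / (u : ℝ)) + a' * (1 / (u : ℝ)) = (a * ((u : ℝ) - 1) + a') / u by
            field_simp, le_div_iff₀ hu0]
          exact hc

open Classical in
/-- A saving at each dyadic level gives a saving below `x0`. -/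
theorem sum_plainKer_le {γ : ℝ} {ψ : ℕ → ℝ} {S : Finset ℕ} {x0 A η : ℝ} {P : ℕ → ℕ → Prop}
    (hS : ∀ q ∈ S, 0 < q) (hψ : ∀ q, 0 ≤ ψ q) (hψS : ∀ q ∈ S, 0 < ψ q) (hx0 : 0 < x0)
    (hx : x0 ≤ 1 / 8) (hA : 0 ≤ A) (hη : 0 < η)
    (hlev : ∀ i : ℕ, (1 / 2 : ℝ) ^ i < 2 * x0 →
      ∑ z ∈ (plainPairs ψ S x0 P).filter
          (fun z => (nearSet γ ψ z.1 z.2).Nonempty ∧ plainLev ψ z = i),
        wt ψ z.1 * wt ψ z.2 * hFac 0 (qd z.1 z.2 * qd z.2 z.1) ≤
        A * ((1 / 2 : ℝ) ^ i) ^ (1 + η)) :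
    ∑ q ∈ S, ∑ r ∈ S.filter (fun r => r ≠ q ∧ dist2 ψ q r < x0 ∧ P q r), plainKer γ ψ q r ≤
      2 * A * (1 - (1 / 2 : ℝ) ^ η)⁻¹ * (2 * x0) ^ η := by
  set U := (plainPairs ψ S x0 P).filter (fun z => (nearSet γ ψ z.1 z.2).Nonempty) with hU
  set t : ℝ := (1 / 2 : ℝ) ^ η with ht
  have ht0 : 0 ≤ t := by positivity
  have ht1 : t < 1 := Real.rpow_lt_one (by norm_num) (by norm_num) hη
  have hw : ∀ z : ℕ × ℕ, 0 ≤ wt ψ z.1 * wt ψ z.2 * hFac 0 (qd z.1 z.2 * qd z.2 z.1) := fun z =>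
    mul_nonneg (mul_nonneg (wt_nonneg hψ _) (wt_nonneg hψ _)) (zero_le_one.trans (one_le_hFac _ _))
  have e1 : ∑ q ∈ S, ∑ r ∈ S.filter (fun r => r ≠ q ∧ dist2 ψ q r < x0 ∧ P q r),
      plainKer γ ψ q r = ∑ z ∈ plainPairs ψ S x0 P, plainKer γ ψ z.1 z.2 := by
    rw [plainPairs, Finset.sum_filter, Finset.sum_product]
    exact Finset.sum_congr rfl fun q _ => by rw [Finset.sum_filter]
  have e2 : ∑ z ∈ U, plainKer γ ψ z.1 z.2 = ∑ z ∈ plainPairs ψ S x0 P, plainKer γ ψ z.1 z.2 := by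
    refine Finset.sum_filter_of_ne fun z _ hne => ?_
    by_contra h
    rw [Finset.not_nonempty_iff_eq_empty] at h
    exact hne (by simp [plainKer, h])
  have hterm : ∀ z ∈ U, plainKer γ ψ z.1 z.2 ≤ 2 * (2 : ℝ) ^ plainLev ψ z *
      (wt ψ z.1 * wt ψ z.2 * hFac 0 (qd z.1 z.2 * qd z.2 z.1)) := by
    intro z hz
    have hzP := (Finset.mem_filter.1 hz).1
    obtain ⟨hD0, -, hlt, -⟩ := plainLev_spec hS hψS hx hzP
    have hD4 : dist2 ψ z.1 z.2 ≤ 1 / 4 := by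
      have := (Finset.mem_filter.1 hzP).2.2.1
      linarith
    have h2 : 1 / dist2 ψ z.1 z.2 ≤ 2 * (2 : ℝ) ^ plainLev ψ z := by
      rw [one_div (2 : ℝ), inv_pow, inv_lt_iff_one_lt_mul₀ (by positivity)] at hlt
      rw [div_le_iff₀ hD0]
      linarith
    have hc : ((nearSet γ ψ z.1 z.2).card : ℝ) ≤ 1 := by exact_mod_cast card_nearSet_le_one hD4
    have hh : 0 ≤ hFac 0 (qd z.1 z.2 * qd z.2 z.1) := zero_le_one.trans (one_le_hFac _ _)
    calc plainKer γ ψ z.1 z.2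
        = 1 / dist2 ψ z.1 z.2 * (((nearSet γ ψ z.1 z.2).card : ℝ) *
            (wt ψ z.1 * wt ψ z.2 * hFac 0 (qd z.1 z.2 * qd z.2 z.1))) := by
          rw [plainKer]; ring
      _ ≤ 2 * (2 : ℝ) ^ plainLev ψ z *
            (1 * (wt ψ z.1 * wt ψ z.2 * hFac 0 (qd z.1 z.2 * qd z.2 z.1))) :=
          mul_le_mul h2 (mul_le_mul_of_nonneg_right hc (hw z))
            (mul_nonneg (Nat.cast_nonneg _) (hw z)) (by positivity)
      _ = _ := by rw [one_mul]
  set I := U.image (plainLev ψ) with hI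
  have hI' : ∀ i ∈ I, (1 / 2 : ℝ) ^ i < 2 * x0 := by
    intro i hi
    obtain ⟨z, hz, rfl⟩ := Finset.mem_image.1 hi
    have hzP := (Finset.mem_filter.1 hz).1
    have := (plainLev_spec hS hψS hx hzP).2.2.1
    have := (Finset.mem_filter.1 hzP).2.2.1
    linarith
  rw [e1, ← e2]
  refine (Finset.sum_le_sum hterm).trans ?_
  rw [← Finset.sum_fiberwise_of_maps_to (g := plainLev ψ) (t := I)
    (fun z hz => Finset.mem_image_of_mem _ hz)]
  calc ∑ i ∈ I, ∑ z ∈ U.filter (fun z => plainLev ψ z = i), 2 * (2 : ℝ) ^ plainLev ψ z *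
        (wt ψ z.1 * wt ψ z.2 * hFac 0 (qd z.1 z.2 * qd z.2 z.1))
      ≤ ∑ i ∈ I, 2 * A * t ^ i := by
        refine Finset.sum_le_sum fun i hi => ?_
        rw [Finset.sum_congr rfl fun z hz => by rw [(Finset.mem_filter.1 hz).2], ← Finset.mul_sum,
          hU, Finset.filter_filter]
        have h := hlev i (hI' i hi)
        refine (mul_le_mul_of_nonneg_left h (by positivity)).trans (le_of_eq ?_)
        rw [ht, ← Real.rpow_natCast ((1 / 2 : ℝ) ^ η), ← Real.rpow_mul (by norm_num),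
          Real.rpow_add (by positivity), Real.rpow_one, ← Real.rpow_natCast (1 / 2 : ℝ),
          ← Real.rpow_mul (by norm_num), Real.rpow_natCast, mul_comm η, one_div, inv_pow]
        field_simp
    _ ≤ 2 * A * ((1 - t)⁻¹ * (2 * x0) ^ η) := by
        rw [← Finset.mul_sum]
        refine mul_le_mul_of_nonneg_left ?_ (by positivity)
        rcases I.eq_empty_or_nonempty with he | hne
        · rw [he, Finset.sum_empty]
          exact mul_nonneg (inv_nonneg.2 (by linarith)) (by positivity)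
        set a := I.min' hne with ha
        have hta : t ^ a ≤ (2 * x0) ^ η := by
          rw [ht, ← Real.rpow_natCast, ← Real.rpow_mul (by norm_num), mul_comm,
            Real.rpow_mul (by norm_num), Real.rpow_natCast]
          exact Real.rpow_le_rpow (by positivity) (hI' a (Finset.min'_mem _ hne)).le hη.le
        obtain ⟨M, hM⟩ : ∃ M, ∀ l ∈ I, l ≤ M := ⟨I.sup id, fun l hl => Finset.le_sup (f := id) hl⟩
        refine (Finset.sum_le_sum_of_subset_of_nonneg (t := (Finset.range (M + 1)).image (a + ·))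
          (fun l hl => Finset.mem_image.2 ⟨l - a, Finset.mem_range.2 (by have := hM l hl; omega),
            by have := Finset.min'_le _ l hl; omega⟩) fun l _ _ => pow_nonneg ht0 l).trans ?_
        rw [Finset.sum_image (fun x _ y _ h => by omega)]
        simp only [pow_add, ← Finset.mul_sum]
        rw [mul_comm (1 - t)⁻¹]
        exact mul_le_mul hta (((summable_geometric_of_lt_one ht0 ht1).sum_le_tsum _
          fun i _ => pow_nonneg ht0 i).trans (tsum_geometric_of_lt_one ht0 ht1).le)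
          (Finset.sum_nonneg fun i _ => pow_nonneg ht0 i) (by positivity)
    _ = _ := by ring

end Vale.Agent.P028.Full
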