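import Vale.Agent.P028.Full.LargeLevel

/-!
Pairs with `D` bounded below: the factor of the primes of `q' r'` above a power of `log D` is
bounded on average, so the kernel at these pairs is a constant times the product of the masses.
-/

noncomputable section

namespace Vale.Agent.P028.Full

open Finset BilinearAux

/-- `⌊(log (2 + D)) ^ c⌋`: the primes up to this threshold are averaged over the translates. -/
def farCut (c D : ℝ) : ℕ := ⌊Real.log (2 + D) ^ c⌋₊

/-- Between a threshold and its power the primes cost a constant. -/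
theorem exists_hFac_mid_le (m : ℕ) (hm : 1 ≤ m) :
    ∃ B : ℝ, 0 ≤ B ∧ ∀ a y n : ℕ, y ≤ max 2 a ^ m → hFac a n ≤ B * hFac y n := by
  obtain ⟨C, hC⟩ := exists_sum_inv_prime_le
  set B : ℝ := Real.exp (2 * (1 / 2 + C * m)) with hB
  refine ⟨B, (Real.exp_pos _).le, fun a y n hy => ?_⟩
  set a' := max 2 a with ha'
  set U := (n.primeFactors.filter (fun p => a < p)).filter (fun p => p ≤ y) with hU
  have hsplit : hFac a n ≤ (∏ p ∈ U, ratio p) * hFac y n := by
    rw [hFac, ← prod_filter_mul_prod_filter_not _ (fun p => p ≤ y)]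
    refine mul_le_mul_of_nonneg_left ?_ (prod_nonneg fun p _ => ratio_nonneg p)
    rw [hFac]
    refine prod_le_prod_of_subset_of_one_le (fun p hp => ?_) (fun p _ => ratio_nonneg p)
      fun p hp _ => one_le_ratio (Nat.prime_of_mem_primeFactors (mem_filter.1 hp).1)
    obtain ⟨h1, h2⟩ := mem_filter.1 hp
    exact mem_filter.2 ⟨(mem_filter.1 h1).1, not_le.1 h2⟩
  refine hsplit.trans (mul_le_mul_of_nonneg_right ?_ (zero_le_one.trans (one_le_hFac _ _)))
  have hprime : ∀ p ∈ U, p.Prime := fun p hp =>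
    Nat.prime_of_mem_primeFactors (mem_filter.1 (mem_filter.1 hp).1).1
  have hexp : ∀ p ∈ U, ratio p ≤ Real.exp (2 * (1 / (p : ℝ))) := by
    intro p hp
    have hp2 : (2 : ℝ) ≤ p := by exact_mod_cast (hprime p hp).two_le
    refine le_trans ?_ (Real.add_one_le_exp _)
    rw [ratio, div_le_iff₀ (by linarith)]
    field_simp
    nlinarith
  refine (prod_le_prod (fun p _ => ratio_nonneg p) hexp).trans ?_
  rw [← Real.exp_sum, hB, Real.exp_le_exp, ← mul_sum]
  refine mul_le_mul_of_nonneg_left ?_ zero_le_two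
  have hsub : U ⊆ insert 2 ((Finset.Ioc a' (a' ^ m)).filter Nat.Prime) := by
    intro p hp
    obtain ⟨h1, h2⟩ := mem_filter.1 hp
    have hpa := (mem_filter.1 h1).2
    have := (hprime p hp).two_le
    by_cases h : p = 2
    · exact mem_insert.2 (Or.inl h)
    · exact mem_insert.2 (Or.inr (mem_filter.2 ⟨mem_Ioc.2 ⟨by omega, h2.trans hy⟩, hprime p hp⟩))
  refine (sum_le_sum_of_subset_of_nonneg hsub fun p _ _ => by positivity).trans ?_
  rw [sum_insert (by simp [ha'])]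
  have := hC a' m (le_max_left _ _) hm
  push_cast
  linarith

/-- The cut of a level is a power of the threshold of its pairs. -/
theorem exists_cutoff_le (c : ℝ) (hc : 0 < c) :
    ∃ m : ℕ, 1 ≤ m ∧ ∀ x D : ℝ, 0 < x → x < D →
      Nat.log 4 ⌊Real.sqrt (8 * x)⌋₊ ≤ max 2 (farCut c D) ^ m := by
  set k := ⌈1 / c⌉₊ with hk
  refine ⟨2 * k + 1, by omega, fun x D hx hxD => ?_⟩
  set y := Nat.log 4 ⌊Real.sqrt (8 * x)⌋₊ with hy
  set a := farCut c D with ha
  set L := Real.log (2 + D) with hL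
  have hD : 0 < D := hx.trans hxD
  have hL0 : 0 ≤ L := Real.log_nonneg (by linarith)
  have h1 : L ≤ ((a : ℝ) + 1) ^ k := by
    have h : L ^ c < (a : ℝ) + 1 := by rw [ha, farCut]; exact Nat.lt_floor_add_one _
    calc L = (L ^ c) ^ (1 / c) := by
          rw [← Real.rpow_mul hL0, mul_one_div_cancel hc.ne', Real.rpow_one]
      _ ≤ ((a : ℝ) + 1) ^ (1 / c) :=
          Real.rpow_le_rpow (Real.rpow_nonneg hL0 _) h.le (by positivity)
      _ ≤ ((a : ℝ) + 1) ^ (k : ℝ) :=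
          Real.rpow_le_rpow_of_exponent_le (le_add_of_nonneg_left (Nat.cast_nonneg _))
            (Nat.le_ceil _)
      _ = _ := Real.rpow_natCast _ _
  have h2 : (y : ℝ) ≤ 1 + L := by
    rcases Nat.eq_zero_or_pos ⌊Real.sqrt (8 * x)⌋₊ with h | h
    · rw [hy, h, Nat.log_zero_right]; push_cast; linarith
    have h4 : (4 : ℝ) ^ y ≤ 2 * (2 + D) := by
      refine le_trans (le_trans (by exact_mod_cast Nat.pow_log_le_self 4 h.ne')
        (Nat.floor_le (Real.sqrt_nonneg _))) ?_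
      rw [Real.sqrt_le_iff]
      exact ⟨by linarith, by nlinarith [sq_nonneg (D - 2)]⟩
    have h5 := Real.log_le_log (by positivity) h4
    rw [Real.log_pow, Real.log_mul two_ne_zero (by linarith), ← hL] at h5
    have hlog4 : 1 ≤ Real.log 4 := by
      rw [show (4 : ℝ) = 2 ^ 2 by norm_num, Real.log_pow]
      have := Real.log_two_gt_d9
      push_cast
      linarith
    have := Real.log_two_lt_d9
    nlinarith [Nat.cast_nonneg (α := ℝ) y]
  have h3 : y ≤ 1 + (a + 1) ^ k := by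
    have : (y : ℝ) ≤ 1 + ((a : ℝ) + 1) ^ k := by linarith
    exact_mod_cast this
  refine h3.trans ?_
  set a' := max 2 a with ha'
  have hpow : (a + 1) ^ k ≤ a' ^ (2 * k) := by
    rw [pow_mul]
    refine Nat.pow_le_pow_left ?_ k
    have h2' : 2 ≤ a' := le_max_left _ _
    have h3' : a ≤ a' := le_max_right _ _
    nlinarith
  have h1' : 1 ≤ a' ^ (2 * k) := Nat.one_le_pow _ _ (by omega)
  rw [pow_succ]
  nlinarith [le_max_left 2 a]

private theorem sum_mul_comm3 (S : Finset ℕ) {P : ℕ → ℕ → Prop} [∀ q, DecidablePred (P q)] (k : ℝ)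
    (f : ℕ → ℕ → ℝ) :
    k * (∑ q ∈ S, ∑ r ∈ S.filter (fun r => P q r), f q r) =
      ∑ q ∈ S, ∑ r ∈ S.filter (fun r => P q r), k * f q r := by
  simp only [mul_sum]

/-- One dyadic level: a constant times the weight of the level and a power gain. -/
theorem exists_farLevel_le (c : ℝ) (hc : 0 < c) :
    ∃ W : ℝ, 0 ≤ W ∧ ∀ (ψ : ℕ → ℝ) (S : Finset ℕ) (x : ℝ), (∀ q ∈ S, 0 < q) → (∀ q, 0 ≤ ψ q) →
      mass ψ S ≤ 2 → 0 < x →
      ∑ q ∈ S, ∑ r ∈ S.filter (fun r => q ≠ r ∧ (x < dist2 ψ q r ∧ dist2 ψ q r ≤ 2 * x)),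
          wt ψ q * wt ψ r * hFac (farCut c (dist2 ψ q r)) (qd q r * qd r q) ≤
        W * (∑ q ∈ S, ∑ r ∈ S.filter (fun r => q ≠ r ∧ (x < dist2 ψ q r ∧ dist2 ψ q r ≤ 2 * x)),
          wt ψ q * wt ψ r) + W * x ^ (-(1 / 100) : ℝ) := by
  obtain ⟨m, hm, hcut⟩ := exists_cutoff_le c hc
  obtain ⟨B, hB0, hB⟩ := exists_hFac_mid_le m hm
  obtain ⟨Cm, hCm0, hmom⟩ := exists_hFac_level_le
  refine ⟨B * 3 + B * Cm, by positivity, ?_⟩
  intro ψ S x hS hψ hm2 hx
  obtain ⟨-, hxz, -⟩ := cutoff_props hx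
  set y := Nat.log 4 ⌊Real.sqrt (8 * x)⌋₊ with hy
  set s := 12 * (y + 1) with hs
  have hWW : ∀ q r, 0 ≤ wt ψ q * wt ψ r := fun q r =>
    mul_nonneg (wt_nonneg hψ q) (wt_nonneg hψ r)
  have hh : ∀ n, 0 ≤ hFac y n := fun n => zero_le_one.trans (one_le_hFac _ _)
  have hterm : ∀ q r, x < dist2 ψ q r →
      wt ψ q * wt ψ r * hFac (farCut c (dist2 ψ q r)) (qd q r * qd r q) ≤
        B * 3 * (wt ψ q * wt ψ r) + B * Real.exp (-(s : ℝ)) *
          (wt ψ q * wt ψ r * hFac y (qd q r * qd r q) ^ (s + 1)) := by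
    intro q r hD
    refine (mul_le_mul_of_nonneg_left ((hB _ y _ (hcut x _ hx hD)).trans
      (mul_le_mul_of_nonneg_left (hFac_le_three_add' y _ s) hB0)) (hWW q r)).trans (le_of_eq ?_)
    ring
  refine (sum_le_sum fun q _ => sum_le_sum fun r hr => hterm q r (mem_filter.1 hr).2.2.1).trans ?_
  simp only [sum_add_distrib]
  rw [← sum_mul_comm3 S, ← sum_mul_comm3 S]
  set A := ∑ q ∈ S, ∑ r ∈ S.filter (fun r => q ≠ r ∧ (x < dist2 ψ q r ∧ dist2 ψ q r ≤ 2 * x)),
    wt ψ q * wt ψ r with hA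
  have hA0 : 0 ≤ A := sum_nonneg fun q _ => sum_nonneg fun r _ => hWW q r
  refine add_le_add (mul_le_mul_of_nonneg_right ?_ hA0) ?_
  · exact le_add_of_nonneg_right (mul_nonneg hB0 hCm0)
  have hmono : ∀ q ∈ S, ∑ r ∈ S.filter (fun r => q ≠ r ∧ (x < dist2 ψ q r ∧ dist2 ψ q r ≤ 2 * x)),
        wt ψ q * wt ψ r * hFac y (qd q r * qd r q) ^ (s + 1) ≤
      ∑ r ∈ S.filter (fun r => q ≠ r ∧ dist2 ψ q r ≤ 2 * x),
        wt ψ q * wt ψ r * hFac y (qd q r * qd r q) ^ (s + 1) := fun q _ =>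
    sum_le_sum_of_subset_of_nonneg
      (fun r hr => mem_filter.2 ⟨(mem_filter.1 hr).1, (mem_filter.1 hr).2.1, (mem_filter.1 hr).2.2.2⟩)
      fun r _ _ => mul_nonneg (hWW q r) (pow_nonneg (hh _) _)
  refine (mul_le_mul_of_nonneg_left (sum_le_sum hmono)
    (mul_nonneg hB0 (Real.exp_pos _).le)).trans ?_
  rw [mul_assoc]
  refine (mul_le_mul_of_nonneg_left (hmom ψ S x y hS hψ hm2 hx hxz) hB0).trans ?_
  rw [← mul_assoc]
  exact mul_le_mul_of_nonneg_right (le_add_of_nonneg_left (by positivity))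
    (Real.rpow_nonneg hx.le _)

/-- The pairs with `D ≥ x0`, with the primes of `q' r'` above the cut, weigh a bounded amount. -/
theorem exists_farPairs_le (c x0 : ℝ) (hc : 0 < c) (hx0 : 0 < x0) :
    ∃ B : ℝ, ∀ (ψ : ℕ → ℝ) (S : Finset ℕ), (∀ q ∈ S, 0 < q) → (∀ q, 0 ≤ ψ q) → mass ψ S ≤ 2 →
      ∑ q ∈ S, ∑ r ∈ S.filter (fun r => r ≠ q ∧ x0 ≤ dist2 ψ q r),
        wt ψ q * wt ψ r * hFac (farCut c (dist2 ψ q r)) (qd q r * qd r q) ≤ B := by
  classical
  obtain ⟨W, hW0, hW⟩ := exists_farLevel_le c hc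
  set η : ℝ := 1 / 100 with hη
  set g : ℝ := (2 : ℝ) ^ (-η) with hg
  have hg0 : 0 ≤ g := Real.rpow_nonneg zero_le_two _
  have hg1 : g < 1 := Real.rpow_lt_one_of_one_lt_of_neg one_lt_two (by norm_num [hη])
  set x1 := x0 / 2 with hx1
  have hx10 : 0 < x1 := by linarith
  refine ⟨W * 4 + W * (x1 ^ (-η) * (1 - g)⁻¹), fun ψ S hS hψ hm => ?_⟩
  have hwt : ∀ q, 0 ≤ wt ψ q := fun q => wt_nonneg hψ q
  set T : ℕ → ℕ → ℝ := fun q r =>
    wt ψ q * wt ψ r * hFac (farCut c (dist2 ψ q r)) (qd q r * qd r q) with hT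
  have hT0 : ∀ q r, 0 ≤ T q r := fun q r =>
    mul_nonneg (mul_nonneg (hwt q) (hwt r)) (zero_le_one.trans (one_le_hFac _ _))
  set lev : ℕ → ℕ → ℕ := fun q r => Nat.log 2 ⌊dist2 ψ q r / x0⌋₊ with hlev
  set N := ((S ×ˢ S).sup fun z => lev z.1 z.2) + 1 with hN
  have hspec : ∀ q r, x0 ≤ dist2 ψ q r →
      x1 * 2 ^ lev q r < dist2 ψ q r ∧ dist2 ψ q r ≤ 2 * (x1 * 2 ^ (lev q r + 1)) := by
    intro q r hD
    set D := dist2 ψ q r with hDd
    have hf : 1 ≤ ⌊D / x0⌋₊ := Nat.le_floor (by push_cast; exact (one_le_div hx0).2 hD)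
    have h1 : (2 : ℝ) ^ lev q r ≤ D / x0 :=
      le_trans (by exact_mod_cast Nat.pow_log_le_self 2 (by omega : ⌊D / x0⌋₊ ≠ 0))
        (Nat.floor_le (div_nonneg (hx0.le.trans hD) hx0.le))
    have h2 : D / x0 < (2 : ℝ) ^ (lev q r + 1) :=
      lt_of_lt_of_le (Nat.lt_floor_add_one _)
        (by exact_mod_cast Nat.lt_pow_succ_log_self one_lt_two ⌊D / x0⌋₊)
    rw [le_div_iff₀ hx0] at h1
    rw [div_lt_iff₀ hx0] at h2
    have : 0 < (2 : ℝ) ^ lev q r * x1 := by positivity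
    constructor <;> rw [hx1] at * <;> nlinarith
  -- each level is cut into two dyadic intervals
  set P : ℕ → ℕ → ℕ → Prop := fun m q r =>
    q ≠ r ∧ (x1 * 2 ^ m < dist2 ψ q r ∧ dist2 ψ q r ≤ 2 * (x1 * 2 ^ m)) with hP
  have hcover : ∀ q ∈ S, ∀ r ∈ S, r ≠ q → x0 ≤ dist2 ψ q r →
      ∃ m ∈ range (N + 1), P m q r := by
    intro q hq r hr hne hD
    obtain ⟨h1, h2⟩ := hspec q r hD
    have hle : lev q r < N := Nat.lt_succ_of_le
      (le_sup (f := fun z : ℕ × ℕ => lev z.1 z.2) (mem_product.2 ⟨hq, hr⟩ : (q, r) ∈ S ×ˢ S))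
    by_cases h : dist2 ψ q r ≤ 2 * (x1 * 2 ^ lev q r)
    · exact ⟨lev q r, mem_range.2 (by omega), hne.symm, h1, h⟩
    · refine ⟨lev q r + 1, mem_range.2 (by omega), hne.symm, ?_, h2⟩
      rw [pow_succ]
      linarith [not_le.1 h]
  have hone : ∀ q r, ∑ m ∈ range (N + 1), (if P m q r then (1 : ℝ) else 0) ≤ 1 := by
    intro q r
    rw [← sum_filter, sum_const, nsmul_eq_mul, mul_one]
    have : ((range (N + 1)).filter fun m => P m q r).card ≤ 1 := by
      refine card_le_one.2 fun a ha b hb => ?_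
      obtain ⟨-, -, a1, a2⟩ := mem_filter.1 ha
      obtain ⟨-, -, b1, b2⟩ := mem_filter.1 hb
      by_contra hab
      rcases Nat.lt_or_gt_of_ne hab with h | h
      · have h' : (2 : ℝ) ^ (a + 1) ≤ 2 ^ b := pow_le_pow_right₀ one_le_two h
        rw [pow_succ] at h'
        nlinarith
      · have h' : (2 : ℝ) ^ (b + 1) ≤ 2 ^ a := pow_le_pow_right₀ one_le_two h
        rw [pow_succ] at h'
        nlinarith
    exact_mod_cast this
  calc ∑ q ∈ S, ∑ r ∈ S.filter (fun r => r ≠ q ∧ x0 ≤ dist2 ψ q r), T q r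
      ≤ ∑ q ∈ S, ∑ r ∈ S, ∑ m ∈ range (N + 1), (if P m q r then T q r else 0) := by
        refine sum_le_sum fun q hq => ?_
        rw [sum_filter]
        refine sum_le_sum fun r hr => ?_
        have h0 : ∀ m ∈ range (N + 1), 0 ≤ (if P m q r then T q r else 0) := fun m _ => by
          split_ifs <;> first | exact hT0 q r | exact le_rfl
        split_ifs with h
        · obtain ⟨m, hm', hPm⟩ := hcover q hq r hr h.1 h.2
          calc T q r = (if P m q r then T q r else 0) := (if_pos hPm).symm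
            _ ≤ _ := single_le_sum h0 hm'
        · exact sum_nonneg h0
    _ = ∑ m ∈ range (N + 1), ∑ q ∈ S, ∑ r ∈ S.filter (fun r => P m q r), T q r := by
        rw [sum_congr rfl fun q _ => sum_comm, sum_comm]
        exact sum_congr rfl fun m _ => sum_congr rfl fun q _ => (sum_filter _ _).symm
    _ ≤ ∑ m ∈ range (N + 1), (W * (∑ q ∈ S, ∑ r ∈ S.filter (fun r => P m q r), wt ψ q * wt ψ r) +
          W * (x1 * 2 ^ m) ^ (-η)) :=
        sum_le_sum fun m _ => hW ψ S (x1 * 2 ^ m) hS hψ hm (by positivity)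
    _ ≤ _ := by
        rw [sum_add_distrib, ← mul_sum, ← mul_sum]
        refine add_le_add (mul_le_mul_of_nonneg_left ?_ hW0) (mul_le_mul_of_nonneg_left ?_ hW0)
        · calc ∑ m ∈ range (N + 1), ∑ q ∈ S, ∑ r ∈ S.filter (fun r => P m q r), wt ψ q * wt ψ r
              = ∑ q ∈ S, ∑ r ∈ S, wt ψ q * wt ψ r *
                  ∑ m ∈ range (N + 1), (if P m q r then (1 : ℝ) else 0) := by
                rw [sum_comm]
                refine sum_congr rfl fun q _ => ?_
                simp only [sum_filter, mul_sum, mul_ite, mul_one, mul_zero]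
                exact sum_comm
            _ ≤ ∑ q ∈ S, ∑ r ∈ S, wt ψ q * wt ψ r := sum_le_sum fun q _ => sum_le_sum fun r _ =>
                mul_le_of_le_one_right (mul_nonneg (hwt q) (hwt r)) (hone q r)
            _ ≤ 4 := by
                rw [← sum_mul_sum]
                show mass ψ S * mass ψ S ≤ 4
                nlinarith [mass_nonneg hψ S]
        · have e : ∀ m : ℕ, (x1 * 2 ^ m) ^ (-η) = x1 ^ (-η) * g ^ m := fun m => by
            rw [hg, Real.mul_rpow hx10.le (by positivity), ← Real.rpow_natCast 2 m,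
              ← Real.rpow_mul zero_le_two, ← Real.rpow_natCast _ m,
              ← Real.rpow_mul zero_le_two, mul_comm (m : ℝ)]
          simp only [e, ← mul_sum]
          refine mul_le_mul_of_nonneg_left ?_ (Real.rpow_nonneg hx10.le _)
          rw [range_eq_Ico]
          exact (geom_sum_Ico_le_of_lt_one hg0 hg1).trans_eq (by simp)

/-- The translates of a far pair: at most `4 D + 3`. -/
theorem card_nearSet_le (γ : ℝ) (ψ : ℕ → ℝ) (q r : ℕ) (hD : 0 ≤ dist2 ψ q r) :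
    ((nearSet γ ψ q r).card : ℝ) ≤ 4 * dist2 ψ q r + 3 := by
  refine le_trans (Nat.cast_le.2 (card_filter_le _ _)) ?_
  rw [Int.card_Icc]
  set a := ⌊-(γ * mdiff q r) - 2 * dist2 ψ q r⌋ with ha
  set b := ⌈-(γ * mdiff q r) + 2 * dist2 ψ q r⌉ with hb
  have h1 := Int.lt_floor_add_one (-(γ * mdiff q r) - 2 * dist2 ψ q r)
  have h2 := Int.ceil_lt_add_one (-(γ * mdiff q r) + 2 * dist2 ψ q r)
  rw [← ha] at h1
  rw [← hb] at h2
  rcases le_or_gt 0 (b + 1 - a) with h | h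
  · have : (((b + 1 - a).toNat : ℕ) : ℝ) = (b : ℝ) + 1 - a := by
      rw [← Int.cast_natCast, Int.toNat_of_nonneg h]
      push_cast
      ring
    rw [this]
    linarith
  · rw [Int.toNat_of_nonpos h.le]
    push_cast
    linarith

/-- The kernel of the far pairs: all translates, with the primes above the cut. -/
theorem exists_farKernel_le (c x0 : ℝ) (hc : 0 < c) (hx0 : 0 < x0) :
    ∃ B : ℝ, ∀ (γ : ℝ) (ψ : ℕ → ℝ) (S : Finset ℕ), (∀ q ∈ S, 0 < q) → (∀ q, 0 ≤ ψ q) →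
      mass ψ S ≤ 2 →
      ∑ q ∈ S, ∑ r ∈ S.filter (fun r => r ≠ q ∧ x0 ≤ dist2 ψ q r),
        wt ψ q * wt ψ r / dist2 ψ q r * ((nearSet γ ψ q r).card : ℝ) *
          hFac (farCut c (dist2 ψ q r)) (qd q r * qd r q) ≤ B := by
  obtain ⟨B, hB⟩ := exists_farPairs_le c x0 hc hx0
  refine ⟨(4 + 3 / x0) * B, fun γ ψ S hS hψ hm => ?_⟩
  have key : ∀ q r, x0 ≤ dist2 ψ q r →
      wt ψ q * wt ψ r / dist2 ψ q r * ((nearSet γ ψ q r).card : ℝ) *
          hFac (farCut c (dist2 ψ q r)) (qd q r * qd r q) ≤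
        (4 + 3 / x0) * (wt ψ q * wt ψ r * hFac (farCut c (dist2 ψ q r)) (qd q r * qd r q)) := by
    intro q r hD
    set D := dist2 ψ q r with hDd
    have hD0 : 0 < D := hx0.trans_le hD
    have h1 : ((nearSet γ ψ q r).card : ℝ) / D ≤ 4 + 3 / x0 := by
      rw [div_le_iff₀ hD0]
      have := card_nearSet_le γ ψ q r hD0.le
      have : 3 ≤ 3 / x0 * D := by
        rw [div_mul_eq_mul_div, le_div_iff₀ hx0]
        linarith
      linarith
    have h0 : 0 ≤ wt ψ q * wt ψ r * hFac (farCut c D) (qd q r * qd r q) :=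
      mul_nonneg (mul_nonneg (wt_nonneg hψ q) (wt_nonneg hψ r))
        (zero_le_one.trans (one_le_hFac _ _))
    calc wt ψ q * wt ψ r / D * ((nearSet γ ψ q r).card : ℝ) *
          hFac (farCut c D) (qd q r * qd r q)
        = ((nearSet γ ψ q r).card : ℝ) / D *
            (wt ψ q * wt ψ r * hFac (farCut c D) (qd q r * qd r q)) := by ring
      _ ≤ _ := mul_le_mul_of_nonneg_right h1 h0
  refine (sum_le_sum fun q _ => sum_le_sum fun r hr => key q r (mem_filter.1 hr).2.2).trans ?_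
  simp only [← mul_sum]
  exact mul_le_mul_of_nonneg_left (hB ψ S hS hψ hm) (by positivity)

end Vale.Agent.P028.Full
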