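import Vale.Agent.P028.Full.Plain.Defs
import Vale.Agent.P028.Full.GenericPools

/-!
Small levels, one cell, a near coincidence which is not an exact relation of the two nodes and one
of `a`, `c` a power of the level: the pools save a power of the level.
-/

noncomputable section

namespace Vale.Agent.P028.Full

open Finset BilinearAux

/-- One cell at the band of the pair, one of `a`, `c` large, and a coincidence which is not exact. -/
def Ctx.PlainGen (C : Ctx) (q r : ℕ) : Prop :=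
  C.Same q r ∧ ¬ C.Small q r ∧
    ∃ n ∈ nearSet C.γ C.ψ q r, ¬ C.ExactAt (C.pairBand q r) q r n

namespace PlainAux

theorem bandOf_mono {X X' : ℝ} (h : X ≤ X') : bandOf X ≤ bandOf X' :=
  Nat.sInf_le (h.trans (le_bandZ_bandOf X'))

theorem bandZ_mono {a b : ℕ} (h : a ≤ b) : bandZ a ≤ bandZ b :=
  Nat.pow_le_pow_right (by norm_num) (Nat.pow_le_pow_right (by norm_num) h)

theorem bandOf_two_mul_le (X : ℝ) : bandOf (2 * X) ≤ bandOf X + 1 := by
  refine Nat.sInf_le ?_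
  have h1 := le_bandZ_bandOf X
  have h2 : (2 : ℝ) ≤ bandZ (bandOf X + 1) := by
    have : 2 ≤ bandZ (bandOf X + 1) := Nat.le_self_pow (pow_pos two_pos _).ne' 2
    exact_mod_cast this
  show 2 * X ≤ _
  rw [bandZ_eq (bandOf X + 1)]
  push_cast
  nlinarith

theorem bandZ_bandOf_le {X : ℝ} (hX : 1 ≤ X) : (bandZ (bandOf X + 1) : ℝ) ≤ 4 * X ^ 2 := by
  rcases Nat.eq_zero_or_pos (bandOf X) with h | h
  · rw [h]
    have : (bandZ (0 + 1) : ℝ) = 4 := by norm_num [bandZ]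
    rw [this]
    nlinarith
  · have h1 := bandZ_bandOf_lt X h
    rw [bandZ_eq]
    push_cast
    nlinarith [show (0 : ℝ) ≤ bandZ (bandOf X) from Nat.cast_nonneg _]

end PlainAux

open PlainAux

open Classical in
/-- Generic pairs at small levels. -/
theorem exists_plainGeneric_le :
    ∃ (η : ℝ) (M0 : ℕ), 0 < η ∧ ∀ M : ℕ, M0 ≤ M → ∃ B x1 : ℝ, 0 ≤ B ∧ 0 < x1 ∧
      ∀ (C : Ctx) (x0 : ℝ), C.par.M = M → (∀ q ∈ C.S, 0 < q) → (∀ q ∈ C.S, 0 < C.ψ q) →
        (∀ q, 0 ≤ C.ψ q) → mass C.ψ C.S ≤ 2 → 0 < x0 → x0 ≤ x1 →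
        ∑ q ∈ C.S, ∑ r ∈ C.S.filter (fun r => r ≠ q ∧ dist2 C.ψ q r < x0 ∧ C.PlainGen q r),
          plainKer C.γ C.ψ q r ≤ B * x0 ^ η := by
  obtain ⟨B, g, ν, M0, hB, hg, hν, hgain⟩ := exists_genPairs_le
  set ξ : ℝ := 1 / 100 with hξd
  set u : ℕ := ⌈2 * (g + 2 * ξ) / g⌉₊ + 2 with hu
  obtain ⟨B2, hB2, hmom⟩ :=
    exists_hFac_moment_tiny_le ξ (by norm_num [hξd]) (by norm_num [hξd]) u
  refine ⟨g / 2, M0, by linarith, fun M hM => ?_⟩
  set T : ℝ := (M : ℝ) * (8 + 8 / ν) + 1 with hT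
  have hT1 : 1 ≤ T := le_add_of_nonneg_left (by positivity)
  set x1 : ℝ := min (1 / 8) (min (1 / (2 * B)) (T ^ (-(2 / ν)) / 2)) with hx1
  have hx1p : 0 < x1 := by
    simp only [hx1, lt_min_iff]
    exact ⟨by norm_num, by positivity, by positivity⟩
  set A : ℝ := (2 * B + 1) * (B2 + 1) with hA
  have hA0 : 0 ≤ A := by positivity
  refine ⟨2 * A * (1 - (1 / 2 : ℝ) ^ (g / 2))⁻¹ * 2 ^ (g / 2), x1, ?_, hx1p,
    fun C x0 hC hpos hψS hψ hmass hx0 hx01 => ?_⟩
  · have : (1 / 2 : ℝ) ^ (g / 2) ≤ 1 := Real.rpow_le_one (by norm_num) (by norm_num) (by linarith)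
    have : 0 ≤ (1 - (1 / 2 : ℝ) ^ (g / 2))⁻¹ := inv_nonneg.2 (by linarith)
    positivity
  have hx8 : x0 ≤ 1 / 8 := hx01.trans (min_le_left _ _)
  refine le_trans (le_trans (le_of_eq ?_) (sum_plainKer_le (γ := C.γ) (P := C.PlainGen)
    (η := g / 2) hpos hψ hψS hx0 hx8 hA0 (by linarith) fun i hi => ?_)) (le_of_eq ?_)
  · refine Finset.sum_congr rfl fun q _ => ?_
    rw [Finset.sum_filter]
  swap
  · rw [Real.mul_rpow zero_le_two hx0.le]; ring
  set x : ℝ := (1 / 2 : ℝ) ^ i with hxd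
  have hxpos : 0 < x := by positivity
  have hxle : x ≤ 2 * x1 := by linarith
  have hxi : x⁻¹ = (2 : ℝ) ^ i := by rw [hxd, one_div, inv_pow, inv_inv]
  have hX1 : (1 : ℝ) ≤ x⁻¹ := hxi ▸ one_le_pow₀ one_le_two
  have hxone : x ≤ 1 := pow_le_one₀ (by norm_num) (by norm_num)
  obtain ⟨m3, m4⟩ : B * x ≤ 1 ∧ x ≤ T ^ (-(2 / ν)) := by
    have a3 : x1 ≤ 1 / (2 * B) := (min_le_right _ _).trans (min_le_left _ _)
    have a4 : x1 ≤ T ^ (-(2 / ν)) / 2 := (min_le_right _ _).trans (min_le_right _ _)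
    rw [le_div_iff₀ (by positivity)] at a3
    refine ⟨?_, by linarith⟩
    nlinarith
  -- the two bands of the level
  have hband : ∀ j, bandOf ((2 : ℝ) ^ i) ≤ j → j ≤ bandOf ((2 : ℝ) ^ i) + 1 →
      ∑ q ∈ C.S, ∑ r ∈ C.S.filter (fun r => C.GenAt j x q r), wt C.ψ q * wt C.ψ r ≤
        B * x ^ (1 + g) := by
    intro j hj1 hj2
    rw [← hxi] at hj1 hj2
    have hZlow : x⁻¹ ≤ (bandZ (j + 1) : ℝ) :=
      (le_bandZ_bandOf _).trans (Nat.cast_le.2 (bandZ_mono (Nat.add_le_add_right hj1 1)))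
    have hZup : (bandZ (j + 1) : ℝ) ≤ 16 * x⁻¹ ^ 4 := by
      refine le_trans (Nat.cast_le.2
        (bandZ_mono (show j + 1 ≤ bandOf x⁻¹ + 1 + 1 by omega))) ?_
      rw [bandZ_eq (bandOf x⁻¹ + 1)]
      push_cast
      calc (bandZ (bandOf x⁻¹ + 1) : ℝ) ^ 2 ≤ (4 * x⁻¹ ^ 2) ^ 2 :=
            pow_le_pow_left₀ (Nat.cast_nonneg _) (bandZ_bandOf_le hX1) 2
        _ = _ := by ring
    have hthr : (C.par.thr j : ℝ) = (bandZ (j + 1) : ℝ) ^ M := by
      rw [Par.thr, hC]; push_cast; rfl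
    have hY : x ^ (-(M0 : ℝ)) ≤ (C.par.thr j : ℝ) := by
      rw [hthr, Real.rpow_neg hxpos.le, Real.rpow_natCast, ← inv_pow]
      exact (pow_le_pow_right₀ hX1 hM).trans (pow_le_pow_left₀ (by positivity) hZlow M)
    have hlogY : Real.log (C.par.thr j) ≤ x ^ (-ν) := by
      rw [hthr, Real.log_pow]
      have hl : Real.log (bandZ (j + 1)) ≤ Real.log 16 + 4 * Real.log x⁻¹ := by
        refine (Real.log_le_log (by linarith) hZup).trans (le_of_eq ?_)
        rw [Real.log_mul (by norm_num) (by positivity), Real.log_pow]; norm_num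
      have hl16 : Real.log 16 ≤ 8 := by
        have h := Real.log_le_sub_one_of_pos (show (0 : ℝ) < 4 by norm_num)
        rw [show (16 : ℝ) = 4 ^ 2 by norm_num, Real.log_pow]; push_cast; linarith
      set p := x ^ (-(ν / 2)) with hp
      have hp1 : 1 ≤ p :=
        Real.one_le_rpow_of_pos_of_le_one_of_nonpos hxpos (by linarith) (by linarith)
      have hlp : Real.log x⁻¹ ≤ p / (ν / 2) := by
        refine (Real.log_le_rpow_div (by positivity) (by linarith : (0 : ℝ) < ν / 2)).trans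
          (le_of_eq ?_)
        rw [hp, Real.rpow_neg hxpos.le, Real.inv_rpow hxpos.le]
      have hTp : T ≤ p := by
        have := Real.rpow_le_rpow_of_nonpos hxpos m4 (by linarith : -(ν / 2) ≤ 0)
        rw [← Real.rpow_mul (by linarith), show -(2 / ν) * -(ν / 2) = 1 by field_simp,
          Real.rpow_one] at this
        exact this
      calc (M : ℝ) * Real.log (bandZ (j + 1))
          ≤ (M : ℝ) * (8 + 4 * (p / (ν / 2))) :=
            mul_le_mul_of_nonneg_left (by linarith) (Nat.cast_nonneg _)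
        _ ≤ (M : ℝ) * ((8 + 8 / ν) * p) := by
            refine mul_le_mul_of_nonneg_left ?_ (Nat.cast_nonneg _)
            rw [add_mul]
            refine add_le_add (le_mul_of_one_le_right (by norm_num) hp1) (le_of_eq ?_)
            field_simp; ring
        _ ≤ T * p := by
            rw [← mul_assoc]; exact mul_le_mul_of_nonneg_right (le_add_of_nonneg_right zero_le_one)
              (by linarith)
        _ ≤ p * p := mul_le_mul_of_nonneg_right hTp (by linarith)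
        _ = _ := by rw [hp, ← Real.rpow_add hxpos]; ring_nf
    exact hgain C j x hpos hψ hmass hxpos m3 hY hlogY
  set U := (plainPairs C.ψ C.S x0 C.PlainGen).filter
    (fun z => (nearSet C.γ C.ψ z.1 z.2).Nonempty ∧ plainLev C.ψ z = i) with hU
  set b := bandOf ((2 : ℝ) ^ i) with hb
  have hw : ∀ q, 0 ≤ wt C.ψ q := wt_nonneg hψ
  have hmem : ∀ z ∈ U, z.1 ∈ C.S ∧ z.2 ∈ C.S ∧ z.2 ≠ z.1 ∧ dist2 C.ψ z.1 z.2 ≤ x ∧
      (C.GenAt b x z.1 z.2 ∨ C.GenAt (b + 1) x z.1 z.2) := by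
    intro z hz
    obtain ⟨hz, -, hlev⟩ := Finset.mem_filter.1 hz
    obtain ⟨hD0, hle, hlt, hXle⟩ := plainLev_spec hpos hψS hx8 hz
    rw [hlev] at hle hlt hXle
    simp only [plainPairs, Finset.mem_filter] at hz
    obtain ⟨hm, hne, -, hsame, hnsm, n, hn, hex⟩ := hz
    obtain ⟨hq, hr⟩ := Finset.mem_product.1 hm
    refine ⟨hq, hr, hne, hle, ?_⟩
    have hX2 : (dist2 C.ψ z.1 z.2)⁻¹ ≤ 2 * (2 : ℝ) ^ i := by
      rw [one_div, inv_pow, inv_lt_iff_one_lt_mul₀ (by positivity)] at hlt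
      rw [inv_le_iff_one_le_mul₀ hD0]
      linarith
    obtain ⟨j, hj⟩ : ∃ j, C.pairBand z.1 z.2 = j := ⟨_, rfl⟩
    have hj1 : b ≤ j := hj ▸ bandOf_mono hXle
    have hj2 : j ≤ b + 1 := hj ▸ (bandOf_mono hX2).trans (bandOf_two_mul_le _)
    have hcomm : C.pairBand z.2 z.1 = j := by
      rw [← hj, Ctx.pairBand, Ctx.pairBand, dist2, dist2, max_comm]
    have hgen : C.GenAt j x z.1 z.2 := by
      unfold Ctx.Same at hsame
      unfold Ctx.Small Ctx.cP at hnsm
      rw [hj] at hsame hex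
      simp only [hj, hcomm] at hnsm
      refine ⟨hsame, hle, ?_, n, hn, hex⟩
      have h200 : (dist2 C.ψ z.1 z.2)⁻¹ ^ (1 / 200 : ℝ) <
          max (cPart C.k C.S (C.par.thr j) z.1 z.2 : ℝ)
            (cPart C.k C.S (C.par.thr j) z.2 z.1 : ℝ) := by
        by_contra hc
        exact hnsm ⟨(le_max_left _ _).trans (not_lt.1 hc), (le_max_right _ _).trans (not_lt.1 hc)⟩
      refine lt_of_le_of_lt ?_ h200
      rw [Real.inv_rpow hD0.le, ← Real.rpow_neg hD0.le]
      exact Real.rpow_le_rpow_of_nonpos hD0 hle (by norm_num)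
    rcases (show j = b ∨ j = b + 1 by omega) with h | h <;> rw [h] at hgen
    · exact Or.inl hgen
    · exact Or.inr hgen
  refine sum_moment_le U (fun z => wt C.ψ z.1 * wt C.ψ z.2)
    (fun z => hFac 0 (qd z.1 z.2 * qd z.2 z.1)) (u := u) (by omega)
    (fun z _ => mul_nonneg (hw _) (hw _)) (fun z _ => zero_le_one.trans (one_le_hFac _ _)) hxpos
    hxone (A := 2 * B) (A' := B2) (a := 1 + g) (a' := 1 - 3 * ξ / 2) (by positivity) hB2 ?_ ?_ ?_
  · have e : ∀ j, ∑ z ∈ U, (if C.GenAt j x z.1 z.2 then wt C.ψ z.1 * wt C.ψ z.2 else 0) ≤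
        ∑ q ∈ C.S, ∑ r ∈ C.S.filter (fun r => C.GenAt j x q r), wt C.ψ q * wt C.ψ r := by
      intro j
      simp only [Finset.sum_filter]
      rw [← Finset.sum_product' (f := fun q r => if C.GenAt j x q r then wt C.ψ q * wt C.ψ r else 0)]
      refine Finset.sum_le_sum_of_subset_of_nonneg (fun z hz => Finset.mem_product.2
        ⟨(hmem z hz).1, (hmem z hz).2.1⟩) fun z _ _ => ?_
      split_ifs
      · exact mul_nonneg (hw _) (hw _)
      · exact le_rfl
    calc ∑ z ∈ U, wt C.ψ z.1 * wt C.ψ z.2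
        ≤ ∑ z ∈ U, ((if C.GenAt b x z.1 z.2 then wt C.ψ z.1 * wt C.ψ z.2 else 0) +
            (if C.GenAt (b + 1) x z.1 z.2 then wt C.ψ z.1 * wt C.ψ z.2 else 0)) := by
          refine Finset.sum_le_sum fun z hz => ?_
          have h0 : 0 ≤ wt C.ψ z.1 * wt C.ψ z.2 := mul_nonneg (hw _) (hw _)
          rcases (hmem z hz).2.2.2.2 with h | h
          · rw [if_pos h]; split_ifs <;> linarith
          · rw [if_pos h]; split_ifs <;> linarith
      _ ≤ B * x ^ (1 + g) + B * x ^ (1 + g) := by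
          rw [Finset.sum_add_distrib]
          exact add_le_add ((e b).trans (hband b le_rfl (Nat.le_succ b)))
            ((e (b + 1)).trans (hband (b + 1) (Nat.le_succ b) le_rfl))
      _ = _ := by ring
  · refine le_trans ?_ (hmom C.ψ C.S x hpos hψ hmass hxpos hxone)
    simp only [Finset.sum_filter]
    rw [← Finset.sum_product' (f := fun q r => if r ≠ q ∧ dist2 C.ψ q r ≤ x then
      wt C.ψ q * wt C.ψ r * hFac 0 (qd q r * qd r q) ^ u else 0)]
    refine le_trans (le_of_eq (Finset.sum_congr rfl fun z hz => ?_))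
      (Finset.sum_le_sum_of_subset_of_nonneg (fun z hz => Finset.mem_product.2
        ⟨(hmem z hz).1, (hmem z hz).2.1⟩) fun z _ _ => ?_)
    · rw [if_pos ⟨(hmem z hz).2.2.1, (hmem z hz).2.2.2.1⟩]
    · split_ifs
      · exact mul_nonneg (mul_nonneg (hw _) (hw _))
          (pow_nonneg (zero_le_one.trans (one_le_hFac _ _)) _)
      · exact le_rfl
  · have h := Nat.le_ceil (2 * (g + 2 * ξ) / g)
    rw [div_le_iff₀ hg] at h
    rw [hu]
    push_cast
    nlinarith

end Vale.Agent.P028.Full
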