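import Vale.Agent.P028.Full.Plain.Defs
import Vale.Agent.P028.Full.Bil
import Vale.Agent.P028.Full.PairFacts

/-!
Small levels, pairs in different cells at the band of their level: the tree saves a power of the
threshold, which beats the level and the factor from the primes of `q' r'`.
-/

noncomputable section

namespace Vale.Agent.P028.Full

open Finset BilinearAux

open Classical in
/-- The plain weight of the pairs of level at most `x` in different cells above `Y`. -/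
theorem exists_separatedPairs_le (ξ : ℝ) (hξ : 0 < ξ) (hξ1 : ξ ≤ 1 / 100) :
    ∃ B : ℝ, 0 ≤ B ∧ ∀ (K : ℝ) (k : ℕ → ℕ → ℕ) (S : Finset ℕ) (ψ : ℕ → ℝ) (Y : ℕ) (x : ℝ),
      (∀ q ∈ S, 0 < q) → (∀ q, 0 ≤ ψ q) → mass ψ S ≤ 2 → GoodTree ξ K S (wt ψ) k → 0 < x →
      4 ≤ Y →
      ∑ q ∈ S, ∑ r ∈ S.filter (fun r => dist2 ψ q r ≤ x ∧ ¬ SameCell k Y q r),
        wt ψ q * wt ψ r ≤ max K 0 * B * x ^ (1 - ξ) * (Y : ℝ) ^ (-(ξ / 20)) := by
  obtain ⟨C, hC⟩ := exists_bilinear_le ξ hξ hξ1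
  refine ⟨max C 0 * 2 ^ (1 + ξ), by positivity, fun K k S ψ Y x hS hψ hm htree hx hY => ?_⟩
  set G : ℝ := max C 0 * x ^ (1 - ξ) with hG
  have hG0 : 0 ≤ G := by positivity
  set W : ℕ → ℕ → ℝ := fun q r => if dist2 ψ q r ≤ x then 1 else 0 with hW
  have hgain : GainsAt ξ G S (wt ψ) W := by
    intro p i j V V' hp hV hV' hi hj
    refine le_trans (le_of_eq ?_) ((hC ψ ψ V V' x p i j hx hp
      (fun v hv => ⟨hS v (hV hv), hi v hv⟩) (fun v hv => ⟨hS v (hV' hv), hj v hv⟩) hψ hψ).trans ?_)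
    · refine Finset.sum_congr rfl fun v _ => ?_
      rw [Finset.sum_filter]
      exact Finset.sum_congr rfl fun w _ => by
        simp only [hW, dist2', dist2]; split_ifs <;> simp
    · refine mul_le_mul_of_nonneg_right (mul_le_mul_of_nonneg_right ?_ (by positivity)) ?_
      · exact mul_le_mul_of_nonneg_right (le_max_left _ _) (by positivity)
      · have := BilinearAux.mass_nonneg hψ V
        have := BilinearAux.mass_nonneg hψ V'
        rw [massFac]; positivity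
  have h := htree.separated Y G W hY hG0 (fun v w => by simp only [hW]; split <;> norm_num) hgain
  rw [Finset.sum_filter, Finset.sum_product] at h
  refine le_trans (le_of_eq ?_) (h.trans ?_)
  · refine Finset.sum_congr rfl fun q _ => ?_
    rw [Finset.sum_filter]
    refine Finset.sum_congr rfl fun r _ => ?_
    simp only [hW]
    by_cases h1 : dist2 ψ q r ≤ x <;> by_cases h2 : SameCell k Y q r <;> simp [h1, h2]
  · have hm0 : 0 ≤ ∑ v ∈ S, wt ψ v := BilinearAux.mass_nonneg hψ S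
    have h2 : (∑ v ∈ S, wt ψ v) ^ (1 + ξ) ≤ 2 ^ (1 + ξ) := Real.rpow_le_rpow hm0 hm (by linarith)
    calc K * G * (Y : ℝ) ^ (-(ξ / 20)) * (∑ v ∈ S, wt ψ v) ^ (1 + ξ)
        ≤ max K 0 * G * (Y : ℝ) ^ (-(ξ / 20)) * 2 ^ (1 + ξ) := by
          refine mul_le_mul (mul_le_mul_of_nonneg_right (mul_le_mul_of_nonneg_right
            (le_max_left _ _) hG0) (by positivity)) h2 (by positivity) (by positivity)
      _ = _ := by rw [hG]; ring

open Classical in
/-- Pairs in different cells at the band of their level. -/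
theorem exists_plainSeparated_le (ξ K : ℝ) (hξ : 0 < ξ) (hξ1 : ξ ≤ 1 / 100) (M : ℕ)
    (hM : 40 ≤ M) :
    ∃ B : ℝ, 0 ≤ B ∧ ∀ (C : Ctx) (x0 : ℝ), C.par.M = M → C.Ok ξ K → 0 < x0 → x0 ≤ 1 / 8 →
      ∑ q ∈ C.S, ∑ r ∈ C.S.filter (fun r => r ≠ q ∧ dist2 C.ψ q r < x0 ∧ ¬ C.Same q r),
        plainKer C.γ C.ψ q r ≤ B * x0 ^ (ξ / 4) := by
  obtain ⟨B1, hB1, hsep⟩ := exists_separatedPairs_le ξ hξ hξ1
  obtain ⟨B2, hB2, hmom⟩ := exists_hFac_moment_tiny_le ξ hξ hξ1 4
  set A : ℝ := (max K 0 * B1 + 1) * (B2 + 1) with hA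
  have hA0 : 0 ≤ A := by positivity
  refine ⟨2 * A * (1 - (1 / 2 : ℝ) ^ (ξ / 4))⁻¹ * 2 ^ (ξ / 4), ?_, fun C x0 hM' hC hx0 hx => ?_⟩
  · have : (1 / 2 : ℝ) ^ (ξ / 4) ≤ 1 :=
      Real.rpow_le_one (by norm_num) (by norm_num) (by linarith)
    have : 0 ≤ (1 - (1 / 2 : ℝ) ^ (ξ / 4))⁻¹ := inv_nonneg.2 (by linarith)
    positivity
  refine le_trans (le_trans (le_of_eq ?_) (sum_plainKer_le (γ := C.γ)
    (P := fun q r => ¬ C.Same q r) (η := ξ / 4) hC.pos hC.psi_nonneg hC.psi_pos hx0 hx hA0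
    (by linarith) fun i hi => ?_)) (le_of_eq ?_)
  · refine Finset.sum_congr rfl fun q _ => ?_
    rw [Finset.sum_filter, Finset.sum_filter]
    exact Finset.sum_congr rfl fun r _ => by split_ifs <;> rfl
  swap
  · rw [Real.mul_rpow zero_le_two hx0.le]; ring
  set x : ℝ := (1 / 2 : ℝ) ^ i with hxd
  have hx0' : 0 < x := by positivity
  have hx1 : x ≤ 1 := pow_le_one₀ (by norm_num) (by norm_num)
  set T := (plainPairs C.ψ C.S x0 fun q r => ¬ C.Same q r).filter
    (fun z => (nearSet C.γ C.ψ z.1 z.2).Nonempty ∧ plainLev C.ψ z = i) with hT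
  set Y := C.par.thr (bandOf ((2 : ℝ) ^ i)) with hY
  have hxi : x⁻¹ = (2 : ℝ) ^ i := by rw [hxd, one_div, inv_pow, inv_inv]
  have hYlow : x⁻¹ ^ M ≤ (Y : ℝ) := by
    rw [hY, Par.thr, hM', hxi]
    push_cast
    exact pow_le_pow_left₀ (by positivity) (le_bandZ_bandOf _) M
  have hY4 : 4 ≤ Y := by
    rw [hY, Par.thr, hM']
    calc 4 ≤ bandZ (bandOf ((2 : ℝ) ^ i) + 1) := by
          rw [bandZ, show (4 : ℕ) = 2 ^ 2 by norm_num]
          exact Nat.pow_le_pow_right (by norm_num) (Nat.le_self_pow (by omega) 2)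
      _ ≤ _ := Nat.le_self_pow (by omega) _
  have hmem : ∀ z ∈ T, z.1 ∈ C.S ∧ z.2 ∈ C.S ∧ z.2 ≠ z.1 ∧ dist2 C.ψ z.1 z.2 ≤ x ∧
      ¬ SameCell C.k Y z.1 z.2 := by
    intro z hz
    obtain ⟨hz, -, hlev⟩ := Finset.mem_filter.1 hz
    obtain ⟨hD0, hle, -, hXle⟩ := plainLev_spec hC.pos hC.psi_pos hx hz
    rw [hlev] at hle hXle
    simp only [plainPairs, Finset.mem_filter] at hz
    obtain ⟨hm, hne, -, hsame⟩ := hz
    obtain ⟨hq, hr⟩ := Finset.mem_product.1 hm
    refine ⟨hq, hr, hne, hle, fun hs => hsame fun p hp hlt => hs p hp (lt_of_le_of_lt ?_ hlt)⟩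
    have hmono : bandOf ((2 : ℝ) ^ i) ≤ bandOf (dist2 C.ψ z.1 z.2)⁻¹ :=
      Nat.sInf_le (hXle.trans (le_bandZ_bandOf _))
    exact Nat.pow_le_pow_left (Nat.pow_le_pow_right (by norm_num)
      (Nat.pow_le_pow_right (by norm_num) (Nat.add_le_add_right hmono 1))) _
  have hw : ∀ q, 0 ≤ wt C.ψ q := BilinearAux.wt_nonneg hC.psi_nonneg
  refine sum_moment_le T (fun z => wt C.ψ z.1 * wt C.ψ z.2)
    (fun z => hFac 0 (qd z.1 z.2 * qd z.2 z.1)) (u := 4) (by norm_num)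
    (fun z _ => mul_nonneg (hw _) (hw _)) (fun z _ => zero_le_one.trans (one_le_hFac _ _)) hx0' hx1
    (A := max K 0 * B1) (A' := B2) (a := 1 + ξ) (a' := 1 - 3 * ξ / 2) (by positivity) hB2 ?_ ?_
    (by norm_num; linarith)
  · refine le_trans ?_ ((hsep K C.k C.S C.ψ Y x hC.pos hC.psi_nonneg hC.mass_le hC.tree hx0'
      hY4).trans ?_)
    · simp only [Finset.sum_filter]
      rw [← Finset.sum_product' (f := fun q r =>
        if dist2 C.ψ q r ≤ x ∧ ¬ SameCell C.k Y q r then wt C.ψ q * wt C.ψ r else 0)]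
      refine le_trans (le_of_eq (Finset.sum_congr rfl fun z hz => ?_))
        (Finset.sum_le_sum_of_subset_of_nonneg (fun z hz => Finset.mem_product.2
          ⟨(hmem z hz).1, (hmem z hz).2.1⟩) fun z _ _ => ?_)
      · rw [if_pos ⟨(hmem z hz).2.2.2.1, (hmem z hz).2.2.2.2⟩]
      · split_ifs
        · exact mul_nonneg (hw _) (hw _)
        · exact le_rfl
    · rw [mul_assoc (max K 0 * B1)]
      refine mul_le_mul_of_nonneg_left ?_ (by positivity)
      have h1 : (Y : ℝ) ^ (-(ξ / 20)) ≤ (x⁻¹ ^ M) ^ (-(ξ / 20)) :=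
        Real.rpow_le_rpow_of_nonpos (by positivity) hYlow (by linarith)
      refine (mul_le_mul_of_nonneg_left h1 (by positivity)).trans ?_
      rw [inv_pow, Real.inv_rpow (by positivity), ← Real.rpow_neg (by positivity),
        ← Real.rpow_natCast x M, ← Real.rpow_mul hx0'.le, ← Real.rpow_add hx0']
      refine Real.rpow_le_rpow_of_exponent_ge hx0' hx1 ?_
      have : (40 : ℝ) ≤ M := by exact_mod_cast hM
      nlinarith
  · refine le_trans ?_ (hmom C.ψ C.S x hC.pos hC.psi_nonneg hC.mass_le hx0' hx1)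
    simp only [Finset.sum_filter]
    rw [← Finset.sum_product' (f := fun q r => if r ≠ q ∧ dist2 C.ψ q r ≤ x then
      wt C.ψ q * wt C.ψ r * hFac 0 (qd q r * qd r q) ^ 4 else 0)]
    refine le_trans (le_of_eq (Finset.sum_congr rfl fun z hz => ?_))
      (Finset.sum_le_sum_of_subset_of_nonneg (fun z hz => Finset.mem_product.2
        ⟨(hmem z hz).1, (hmem z hz).2.1⟩) fun z _ _ => ?_)
    · rw [if_pos ⟨(hmem z hz).2.2.1, (hmem z hz).2.2.2.1⟩]
    · split_ifs
      · exact mul_nonneg (mul_nonneg (hw _) (hw _))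
          (pow_nonneg (zero_le_one.trans (one_le_hFac _ _)) _)
      · exact le_rfl

end Vale.Agent.P028.Full
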